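import Mathlib

/-!
# Row 213, GEOMETRY layer: metric Hopf-Rinow

A compact Riemannian manifold (in the sense of Mathlib's `IsRiemannianManifold`: the distance is the
infimum of the lengths of `C^1` paths) is a geodesic metric space.
-/

set_option autoImplicit false
open scoped Manifold ContDiff Topology ENNReal
open Set Filter Manifold Bundle MeasureTheory

namespace Claimed.Agent.R213.HopfRinow

noncomputable section

variable {E : Type*} [NormedAddCommGroup E] [NormedSpace ℝ E]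
  {H : Type*} [TopologicalSpace H] {I : ModelWithCorners ℝ E H}
  {M : Type*} [MetricSpace M] [ChartedSpace H M]

section

variable [RiemannianBundle (fun x : M => TangentSpace I x)] [IsRiemannianManifold I M]

/-- the distance between two points of a `C^1` path is at most the length of the arc. -/
theorem edist_le_pathELength {γ : ℝ → M} {a b s t : ℝ}
    (hγ : ContMDiffOn 𝓘(ℝ, ℝ) I 1 γ (Icc a b)) (has : a ≤ s) (hst : s ≤ t) (htb : t ≤ b) :
    edist (γ s) (γ t) ≤ pathELength I γ s t := by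
  rw [IsRiemannianManifold.out (I := I) (γ s) (γ t)]
  exact riemannianEDist_le_pathELength (hγ.mono (Icc_subset_Icc has htb)) rfl rfl hst

omit [IsRiemannianManifold I M] in
/-- small arcs of a path of finite length are short. -/
theorem exists_pos_pathELength_lt {γ : ℝ → M} {a b : ℝ} (hL : pathELength I γ a b ≠ ⊤)
    {ε : ℝ≥0∞} (hε : ε ≠ 0) :
    ∃ δ > (0 : ℝ), ∀ s t, a ≤ s → s ≤ t → t ≤ b → t - s < δ → pathELength I γ s t < ε := by
  rw [pathELength_eq_lintegral_mfderiv_Icc] at hL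
  obtain ⟨δ, hδ, h⟩ := exists_pos_setLIntegral_lt_of_measure_lt hL hε
  obtain ⟨δ', hδ', hδ'δ⟩ : ∃ δ' : ℝ, 0 < δ' ∧ ENNReal.ofReal δ' ≤ δ := by
    rcases eq_or_ne δ ⊤ with rfl | hne
    · exact ⟨1, one_pos, le_top⟩
    · exact ⟨δ.toReal, ENNReal.toReal_pos hδ.ne' hne, (ENNReal.ofReal_toReal hne).le⟩
  refine ⟨δ', hδ', fun s t has hst htb hlt => ?_⟩
  have h1 := h (Icc s t) (by
    refine lt_of_le_of_lt (Measure.restrict_apply_le _ _) ?_
    rw [Real.volume_Icc]
    exact lt_of_lt_of_le ((ENNReal.ofReal_lt_ofReal_iff hδ').2 hlt) hδ'δ)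
  rw [Measure.restrict_restrict measurableSet_Icc,
    inter_eq_left.2 (Icc_subset_Icc has htb)] at h1
  rwa [pathELength_eq_lintegral_mfderiv_Icc]

/-- Reparametrisation proportional to arc length (no regularity claimed). -/
theorem exists_reparam {γ : ℝ → M} (hγ : ContMDiffOn 𝓘(ℝ, ℝ) I 1 γ (Icc 0 1))
    (hL : pathELength I γ 0 1 ≠ ⊤) :
    ∃ g : ℝ → M, g 0 = γ 0 ∧ g 1 = γ 1 ∧ ∀ s t : ℝ, 0 ≤ s → s ≤ t → t ≤ 1 →
      dist (g s) (g t) ≤ (t - s) * (pathELength I γ 0 1).toReal := by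
  have hfin : ∀ s t : ℝ, 0 ≤ s → t ≤ 1 → pathELength I γ s t ≠ ⊤ := fun s t hs ht =>
    ne_top_of_le_ne_top hL (pathELength_mono hs ht)
  set D : ℝ → ℝ → ℝ := fun s t => (pathELength I γ s t).toReal with hD
  have hDnn : ∀ s t, 0 ≤ D s t := fun s t => ENNReal.toReal_nonneg
  have hadd : ∀ r s t : ℝ, 0 ≤ r → r ≤ s → s ≤ t → t ≤ 1 → D r s + D s t = D r t := by
    intro r s t hr hrs hst ht
    simp only [hD]
    rw [← ENNReal.toReal_add (hfin r s hr (hst.trans ht)) (hfin s t (hr.trans hrs) ht),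
      pathELength_add hrs hst]
  have hdist : ∀ s t : ℝ, 0 ≤ s → s ≤ t → t ≤ 1 → dist (γ s) (γ t) ≤ D s t := by
    intro s t hs hst ht
    have h1 := edist_le_pathELength hγ hs hst ht
    rw [← ENNReal.ofReal_toReal (hfin s t hs ht)] at h1
    exact (edist_le_ofReal (hDnn s t)).1 h1
  have hcont : ContinuousOn (fun t => D 0 t) (Icc 0 1) := by
    rw [Metric.continuousOn_iff]
    intro b hb ε hε
    obtain ⟨δ, hδ, h⟩ := exists_pos_pathELength_lt hL (ε := ENNReal.ofReal ε)
      (by simpa using hε)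
    have key : ∀ s t : ℝ, 0 ≤ s → s ≤ t → t ≤ 1 → t - s < δ → D 0 t - D 0 s < ε := by
      intro s t hs hst ht hlt
      have h1 := h s t hs hst ht hlt
      have h2 : D s t < ε := by
        have := (ENNReal.toReal_lt_toReal (hfin s t hs ht) ENNReal.ofReal_ne_top).2 h1
        rwa [ENNReal.toReal_ofReal hε.le] at this
      have h3 := hadd 0 s t le_rfl hs hst ht
      linarith
    refine ⟨δ, hδ, fun a ha hab => ?_⟩
    rw [Real.dist_eq] at hab ⊢
    rcases le_total a b with hle | hle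
    · have h1 := key a b ha.1 hle hb.2 (by rw [abs_lt] at hab; linarith [hab.1])
      have h2 := hadd 0 a b le_rfl ha.1 hle hb.2
      rw [abs_lt]
      constructor <;> linarith [hDnn a b]
    · have h1 := key b a hb.1 hle ha.2 (by rw [abs_lt] at hab; linarith [hab.2])
      have h2 := hadd 0 b a le_rfl hb.1 hle ha.2
      rw [abs_lt]
      constructor <;> linarith [hDnn b a]
  have hD00 : D 0 0 = 0 := by simp [hD]
  have hτ : ∀ s : ℝ, ∃ τ : ℝ, s ∈ Icc (0 : ℝ) 1 → τ ∈ Icc (0 : ℝ) 1 ∧ D 0 τ = s * D 0 1 := by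
    intro s
    by_cases hs : s ∈ Icc (0 : ℝ) 1
    · have hmem : s * D 0 1 ∈ Icc (D 0 0) (D 0 1) := by
        rw [hD00]
        exact ⟨mul_nonneg hs.1 (hDnn 0 1), by nlinarith [hs.2, hDnn 0 1]⟩
      obtain ⟨τ, hτ, hτ'⟩ := intermediate_value_Icc zero_le_one hcont hmem
      exact ⟨τ, fun _ => ⟨hτ, hτ'⟩⟩
    · exact ⟨0, fun h => absurd h hs⟩
  choose τ hτ using hτ
  have h0 := hτ 0 ⟨le_rfl, zero_le_one⟩
  have h1 := hτ 1 ⟨zero_le_one, le_rfl⟩
  refine ⟨fun s => γ (τ s), ?_, ?_, ?_⟩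
  · have := hdist 0 (τ 0) le_rfl h0.1.1 h0.1.2
    rw [h0.2, zero_mul] at this
    exact (dist_le_zero.1 this).symm
  · have := hdist (τ 1) 1 h1.1.1 h1.1.2 le_rfl
    have h2 := hadd 0 (τ 1) 1 le_rfl h1.1.1 h1.1.2 le_rfl
    rw [h1.2, one_mul] at h2
    have h3 : D (τ 1) 1 = 0 := by linarith
    rw [h3] at this
    exact dist_le_zero.1 this
  · intro s t hs hst ht
    have hs' := hτ s ⟨hs, hst.trans ht⟩
    have ht' := hτ t ⟨hs.trans hst, ht⟩
    change dist (γ (τ s)) (γ (τ t)) ≤ (t - s) * D 0 1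
    rcases le_total (τ s) (τ t) with hle | hle
    · have h2 := hdist (τ s) (τ t) hs'.1.1 hle ht'.1.2
      have h3 := hadd 0 (τ s) (τ t) le_rfl hs'.1.1 hle ht'.1.2
      rw [hs'.2, ht'.2] at h3
      linarith
    · have h2 := hdist (τ t) (τ s) ht'.1.1 hle hs'.1.2
      have h3 := hadd 0 (τ t) (τ s) le_rfl ht'.1.1 hle hs'.1.2
      rw [hs'.2, ht'.2] at h3
      have h4 : 0 ≤ (t - s) * D 0 1 := mul_nonneg (by linarith) (hDnn 0 1)
      have h5 : D (τ t) (τ s) ≤ 0 := by nlinarith
      rw [dist_comm]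
      linarith

end

/-- almost minimising, almost constant speed curves. -/
theorem exists_almost_geodesic (I : ModelWithCorners ℝ E H)
    [RiemannianBundle (fun x : M => TangentSpace I x)] [IsRiemannianManifold I M]
    (x y : M) {ε : ℝ} (hε : 0 < ε) :
    ∃ g : ℝ → M, g 0 = x ∧ g 1 = y ∧ ∀ s t : ℝ, 0 ≤ s → s ≤ t → t ≤ 1 →
      dist (g s) (g t) ≤ (t - s) * (dist x y + ε) := by
  have h1 : riemannianEDist I x y < ENNReal.ofReal (dist x y + ε) := by
    rw [← IsRiemannianManifold.out (I := I) x y, edist_dist]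
    exact (ENNReal.ofReal_lt_ofReal_iff (by positivity)).2 (by linarith)
  obtain ⟨γ, h0, h1', hγ, hlt⟩ := exists_lt_of_riemannianEDist_lt h1
  have hL : pathELength I γ 0 1 ≠ ⊤ := ne_top_of_lt hlt
  obtain ⟨g, hg0, hg1, hg⟩ := exists_reparam hγ hL
  refine ⟨g, hg0.trans h0, hg1.trans h1', fun s t hs hst ht => (hg s t hs hst ht).trans ?_⟩
  have h2 : (pathELength I γ 0 1).toReal ≤ dist x y + ε := by
    have := (ENNReal.toReal_le_toReal hL ENNReal.ofReal_ne_top).2 hlt.le
    rwa [ENNReal.toReal_ofReal (by positivity)] at this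
  exact mul_le_mul_of_nonneg_left h2 (by linarith)

/-- **Metric Hopf-Rinow**: in a compact Riemannian manifold any two points are joined by a
minimising constant speed curve. -/
theorem exists_metric_geodesic (I : ModelWithCorners ℝ E H)
    [RiemannianBundle (fun x : M => TangentSpace I x)] [IsRiemannianManifold I M]
    [CompactSpace M] (x y : M) :
    ∃ g : ℝ → M, g 0 = x ∧ g 1 = y ∧ ∀ s ∈ Icc (0 : ℝ) 1, ∀ t ∈ Icc (0 : ℝ) 1,
      dist (g s) (g t) = |s - t| * dist x y := by
  set A : ℕ → Set (ℝ → M) := fun k => {g | g 0 = x ∧ g 1 = y ∧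
    ∀ s t : ℝ, 0 ≤ s → s ≤ t → t ≤ 1 → dist (g s) (g t) ≤ (t - s) * (dist x y + 1 / (k + 1 : ℝ))}
    with hA
  have hcl : ∀ k, IsClosed (A k) := by
    intro k
    have e1 : IsClosed {g : ℝ → M | g 0 = x} := isClosed_eq (continuous_apply 0) continuous_const
    have e2 : IsClosed {g : ℝ → M | g 1 = y} := isClosed_eq (continuous_apply 1) continuous_const
    have e3 : IsClosed {g : ℝ → M | ∀ s t : ℝ, 0 ≤ s → s ≤ t → t ≤ 1 →
        dist (g s) (g t) ≤ (t - s) * (dist x y + 1 / (k + 1 : ℝ))} := by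
      simp only [ofPred_forall]
      refine isClosed_iInter fun s => isClosed_iInter fun t => isClosed_iInter fun _ =>
        isClosed_iInter fun _ => isClosed_iInter fun _ => ?_
      exact isClosed_le ((continuous_apply s).dist (continuous_apply t)) continuous_const
    exact e1.inter (e2.inter e3)
  have hne : (⋂ k, A k).Nonempty := by
    apply IsCompact.nonempty_iInter_of_sequence_nonempty_isCompact_isClosed
    · intro k g hg
      refine ⟨hg.1, hg.2.1, fun s t hs hst ht => (hg.2.2 s t hs hst ht).trans ?_⟩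
      apply mul_le_mul_of_nonneg_left _ (by linarith)
      have : (1 : ℝ) / ((k + 1 : ℕ) + 1 : ℝ) ≤ 1 / (k + 1 : ℝ) := by
        apply one_div_le_one_div_of_le (by positivity)
        push_cast
        linarith
      linarith
    · intro k
      exact exists_almost_geodesic I x y (by positivity)
    · exact (hcl 0).isCompact
    · exact hcl
  obtain ⟨g, hg⟩ := hne
  rw [mem_iInter] at hg
  have hle : ∀ s t : ℝ, 0 ≤ s → s ≤ t → t ≤ 1 → dist (g s) (g t) ≤ (t - s) * dist x y := by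
    intro s t hs hst ht
    have hlim : Tendsto (fun k : ℕ => (t - s) * (dist x y + 1 / (k + 1 : ℝ))) atTop
        (𝓝 ((t - s) * (dist x y + 0))) :=
      (tendsto_const_nhds.add tendsto_one_div_add_atTop_nhds_zero_nat).const_mul _
    rw [add_zero] at hlim
    exact ge_of_tendsto' hlim (fun k => (hg k).2.2 s t hs hst ht)
  have h0 : g 0 = x := (hg 0).1
  have h1 : g 1 = y := (hg 0).2.1
  have heq : ∀ s t : ℝ, 0 ≤ s → s ≤ t → t ≤ 1 → dist (g s) (g t) = (t - s) * dist x y := by
    intro s t hs hst ht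
    apply le_antisymm (hle s t hs hst ht)
    have ha := hle 0 s le_rfl hs (hst.trans ht)
    have hb := hle t 1 (hs.trans hst) ht le_rfl
    have hc : dist x y ≤ dist (g 0) (g s) + dist (g s) (g t) + dist (g t) (g 1) := by
      rw [← h0, ← h1]
      exact dist_triangle4 _ _ _ _
    nlinarith
  refine ⟨g, h0, h1, fun s hs t ht => ?_⟩
  rcases le_total s t with hst | hst
  · rw [heq s t hs.1 hst ht.2, abs_sub_comm, abs_of_nonneg (by linarith)]
  · rw [dist_comm, heq t s ht.1 hst hs.2, abs_of_nonneg (by linarith)]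

end

end Claimed.Agent.R213.HopfRinow
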